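import Vale.Agent.P022D.As.TwA
import Vale.Agent.P022D.As.Bas
import Vale.Agent.P022D.PA.Lim

/-!
# P022G, block MOD: compatible systems of finite quotients
-/

set_option linter.all false

open IsLocalRing

noncomputable section

namespace Vale.Agent.P022G.Md

open Vale.Agent.P022D.PA (Base)
open Vale.Agent.P022D.As (Dir Cmp Ad gr mem_gr Dis Sb)

variable {P T : Type} [CommRing P] [Base P] [CommRing T]

/-- compatible surjections of `P` onto the quotients `T ⧸ a` -/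
structure Sys (m : Ideal T) (𝔊 : Set (Ideal T)) (Ψ : ∀ a : Ideal T, P →+* T ⧸ a) : Prop where
  max : m.IsMaximal
  ne : 𝔊.Nonempty
  inf : ∀ a ∈ 𝔊, ∀ b ∈ 𝔊, a ⊓ b ∈ 𝔊
  fin : ∀ a ∈ 𝔊, Finite (T ⧸ a)
  rad : ∀ a ∈ 𝔊, m ≤ a.radical
  sur : ∀ a ∈ 𝔊, Function.Surjective (Ψ a)
  fac : ∀ a ∈ 𝔊, ∀ b ∈ 𝔊, ∀ (e : a ≤ b) f, Ideal.Quotient.factor e (Ψ a f) = Ψ b f

/-- the correspondences -/
def GG (𝔊 : Set (Ideal T)) (Ψ : ∀ a : Ideal T, P →+* T ⧸ a) : Set (Subring (P × T)) :=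
  {Γ | ∃ a ∈ 𝔊, Γ = gr (Ψ a) (Ideal.Quotient.mk a)}

/-- `f` represents `t` -/
def Rp (𝔊 : Set (Ideal T)) (Ψ : ∀ a : Ideal T, P →+* T ⧸ a) (f : P) (t : T) : Prop :=
  ∀ a ∈ 𝔊, Ψ a f = Ideal.Quotient.mk a t

variable {m : Ideal T} {𝔊 𝔊' : Set (Ideal T)} {Ψ Ψ' : ∀ a : Ideal T, P →+* T ⧸ a} {a b : Ideal T}
  {f g : P} {t s : T}

theorem Rp.add (h : Rp 𝔊 Ψ f t) (k : Rp 𝔊 Ψ g s) : Rp 𝔊 Ψ (f + g) (t + s) := fun a ha => by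
  rw [map_add, map_add, h a ha, k a ha]

theorem Rp.sub (h : Rp 𝔊 Ψ f t) (k : Rp 𝔊 Ψ g s) : Rp 𝔊 Ψ (f - g) (t - s) := fun a ha => by
  rw [map_sub, map_sub, h a ha, k a ha]

theorem Rp.mul (h : Rp 𝔊 Ψ f t) (k : Rp 𝔊 Ψ g s) : Rp 𝔊 Ψ (f * g) (t * s) := fun a ha => by
  rw [map_mul, map_mul, h a ha, k a ha]

theorem Rp.pow (h : Rp 𝔊 Ψ f t) (n : ℕ) : Rp 𝔊 Ψ (f ^ n) (t ^ n) := fun a ha => by
  rw [map_pow, map_pow, h a ha]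

theorem Rp.one : Rp 𝔊 Ψ 1 1 := fun a ha => by rw [map_one, map_one]

theorem Rp.prod {ι : Type} (s : Finset ι) {f : ι → P} {t : ι → T} (h : ∀ i, Rp 𝔊 Ψ (f i) (t i)) :
    Rp 𝔊 Ψ (∏ i ∈ s, f i) (∏ i ∈ s, t i) := fun a ha => by
  rw [map_prod, map_prod]
  exact Finset.prod_congr rfl fun i _ => h i a ha

theorem Rp.down (h : Rp 𝔊 Ψ f t) (e : 𝔊' ⊆ 𝔊) (k : ∀ a ∈ 𝔊', Ψ a = Ψ' a) : Rp 𝔊' Ψ' f t :=
  fun a ha => k a ha ▸ h a (e ha)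

theorem ker_pow {B : Type} [CommRing B] [Finite B] (φ : P →+* B) :
    ∃ k : ℕ, ∀ u ∈ maximalIdeal P ^ k, φ u = 0 := by
  haveI : Finite (P ⧸ RingHom.ker φ) := Finite.of_injective _ (RingHom.kerLift_injective φ)
  obtain ⟨k, hk⟩ := IsArtinianRing.isNilpotent_jacobson_bot (R := P ⧸ RingHom.ker φ)
  refine ⟨k, fun u hu => RingHom.mem_ker.1 (Ideal.Quotient.eq_zero_iff_mem.1 ?_)⟩
  have h1 : (maximalIdeal P).map (Ideal.Quotient.mk (RingHom.ker φ)) ≤ Ideal.jacobson ⊥ := by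
    refine Ideal.map_le_iff_le_comap.2 fun x hx => Ideal.mem_jacobson_bot.2 fun y => ?_
    obtain ⟨y, rfl⟩ := Ideal.Quotient.mk_surjective y
    have := (isUnit_one_sub_self_of_mem_nonunits (-(x * y))
      (neg_mem (Ideal.mul_mem_right y _ hx) : _ ∈ maximalIdeal P)).map
        (Ideal.Quotient.mk (RingHom.ker φ))
    rwa [sub_neg_eq_add, add_comm, map_add, map_mul, map_one] at this
  have h2 := Ideal.pow_right_mono h1 k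
  rw [← Ideal.map_pow, hk] at h2
  exact h2 (Ideal.mem_map_of_mem _ hu)

theorem Sys.ker (h : Sys m 𝔊 Ψ) (ha : a ∈ 𝔊) : ∃ k : ℕ, ∀ u ∈ maximalIdeal P ^ k, Ψ a u = 0 :=
  haveI := h.fin a ha
  ker_pow _

theorem Sys.fac' (h : Sys m 𝔊 Ψ) (ha : a ∈ 𝔊) (hb : b ∈ 𝔊) (e : a ≤ b)
    (k : Ψ a f = Ideal.Quotient.mk a t) : Ψ b f = Ideal.Quotient.mk b t := by
  rw [← h.fac a ha b hb e, k]
  rfl

theorem Sys.dir (h : Sys m 𝔊 Ψ) : Dir (GG 𝔊 Ψ) where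
  sur := by
    rintro _ ⟨a, ha, rfl⟩ f
    obtain ⟨t, ht⟩ := Ideal.Quotient.mk_surjective (Ψ a f)
    exact ⟨t, mem_gr.2 ht.symm⟩
  dir := by
    rintro _ ⟨a, ha, rfl⟩ _ ⟨b, hb, rfl⟩
    exact ⟨_, ⟨_, h.inf a ha b hb, rfl⟩, fun x hx => h.fac' (h.inf a ha b hb) ha inf_le_left hx,
      fun x hx => h.fac' (h.inf a ha b hb) hb inf_le_right hx⟩

theorem Sys.neG (h : Sys m 𝔊 Ψ) : (GG 𝔊 Ψ).Nonempty := ⟨_, _, h.ne.choose_spec, rfl⟩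

/-- representatives inside a subring `R` of `P` -/
theorem Sys.mu' (h : Sys m 𝔊 Ψ) {R : Type} [CommRing R] [Base R] (e : R →+* P) (t : T)
    (hs : ∀ a ∈ 𝔊, ∃ u, Ψ a (e u) = Ideal.Quotient.mk a t) : ∃ u, Rp 𝔊 Ψ (e u) t := by
  haveI := Base.cpl (P := R)
  have hf : Finite (R ⧸ maximalIdeal R) := Base.fin
  obtain ⟨z, hz⟩ := P022D.As.Tw.cpt (maximalIdeal R)
    (fun k => Ideal.finite_quotient_pow (IsNoetherian.noetherian _) k)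
    {s | ∃ a ∈ 𝔊, s = {u | Ψ a (e u) = Ideal.Quotient.mk a t}} ⟨_, _, h.ne.choose_spec, rfl⟩
    (by rintro _ ⟨a, ha, rfl⟩; exact hs a ha)
    (by
      rintro _ ⟨a, ha, rfl⟩ _ ⟨b, hb, rfl⟩
      exact ⟨_, ⟨_, h.inf a ha b hb, rfl⟩, fun x hx => h.fac' (h.inf a ha b hb) ha inf_le_left hx,
        fun x hx => h.fac' (h.inf a ha b hb) hb inf_le_right hx⟩)
    (by
      rintro _ ⟨a, ha, rfl⟩
      haveI := h.fin a ha
      obtain ⟨k, hk⟩ := ker_pow ((Ψ a).comp e)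
      refine ⟨k, fun x hx y hxy => ?_⟩
      have h1 := hk _ hxy
      rw [map_sub, sub_eq_zero] at h1
      exact h1.symm.trans hx)
  exact ⟨z, fun a ha => hz _ ⟨a, ha, rfl⟩⟩

/-- every symbol has a representative -/
theorem Sys.mu (h : Sys m 𝔊 Ψ) (t : T) : ∃ f, Rp 𝔊 Ψ f t :=
  h.mu' (RingHom.id P) t fun a ha => h.sur a ha _

theorem Sys.mem_max (h : Sys m 𝔊 Ψ) (ha : a ∈ 𝔊) (hn : a ≠ ⊤) (k : Ψ a f = Ideal.Quotient.mk a t)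
    (ht : t ∈ m) : f ∈ maximalIdeal P := fun hu => by
  obtain ⟨n, hn'⟩ := h.rad a ha ht
  have h1 := (hu.pow n).map (Ψ a)
  rw [map_pow, k, ← map_pow, Ideal.Quotient.eq_zero_iff_mem.2 hn', isUnit_zero_iff] at h1
  exact hn ((Ideal.eq_top_iff_one _).2 (Ideal.Quotient.eq_zero_iff_mem.1 h1.symm))

variable {Y : Type} [AddCommGroup Y] [Module T Y]

/-- **the action of `P`** -/
theorem Sys.mod (h : Sys m 𝔊 Ψ) (hY : ∀ w : Y, Ideal.torsionOf T Y w ∈ 𝔊) :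
    ∃ _ : Module P Y, Cmp (GG 𝔊 Ψ) Y :=
  h.dir.exists_mod fun w => ⟨_, ⟨_, hY w, rfl⟩, fun t ht => (Ideal.mem_torsionOf_iff _ _).1
    (Ideal.Quotient.eq_zero_iff_mem.1 ((mem_gr.1 ht).symm.trans (map_zero _)))⟩

variable [Module P Y]

theorem act (hc : Cmp (GG 𝔊 Ψ) Y) (e : Rp 𝔊 Ψ f t) (w : Y) : f • w = t • w :=
  hc.all (by rintro _ ⟨a, ha, rfl⟩; exact e a ha) w

theorem up (hc : Cmp (GG 𝔊' Ψ') Y) (e : 𝔊' ⊆ 𝔊) (k : ∀ a ∈ 𝔊', Ψ a = Ψ' a) : Cmp (GG 𝔊 Ψ) Y :=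
  fun w => by
  obtain ⟨_, ⟨a, ha, rfl⟩, h⟩ := hc w
  exact ⟨_, ⟨a, e ha, by rw [k a ha]⟩, h⟩

/-- the action on one element is read in the quotient by its annihilator -/
theorem Sys.act_at (h : Sys m 𝔊 Ψ) (hc : Cmp (GG 𝔊 Ψ) Y) (ha : a ∈ 𝔊) {w : Y}
    (hw : ∀ t ∈ a, t • w = 0) (k : Ψ a f = Ideal.Quotient.mk a t) : f • w = t • w :=
  hc.eq h.dir ⟨a, ha, rfl⟩ (fun t ht => hw t
    (Ideal.Quotient.eq_zero_iff_mem.1 ((mem_gr.1 ht).symm.trans (map_zero _)))) k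

theorem Sys.smul_eq_zero (h : Sys m 𝔊 Ψ) (hc : Cmp (GG 𝔊 Ψ) Y) {w : Y}
    (ha : Ideal.torsionOf T Y w ∈ 𝔊) : f • w = 0 ↔ Ψ (Ideal.torsionOf T Y w) f = 0 := by
  obtain ⟨t, ht⟩ := Ideal.Quotient.mk_surjective (Ψ (Ideal.torsionOf T Y w) f)
  rw [h.act_at hc ha (fun t ht => (Ideal.mem_torsionOf_iff _ _).1 ht) ht.symm, ← ht,
    Ideal.Quotient.eq_zero_iff_mem, Ideal.mem_torsionOf_iff]

theorem Sys.dis (h : Sys m 𝔊 Ψ) (hc : Cmp (GG 𝔊 Ψ) Y) : Dis P Y := fun w => by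
  obtain ⟨_, ⟨a, ha, rfl⟩, e⟩ := hc w
  obtain ⟨k, hk⟩ := h.ker ha
  exact ⟨k, fun u hu => (e u 0 (mem_gr.2 ((hk u hu).trans (map_zero _).symm))).trans (zero_smul _ _)⟩

theorem Sys.kill (h : Sys m 𝔊 Ψ) (hc : Cmp (GG 𝔊 Ψ) Y) (w : Y) :
    (∀ u ∈ maximalIdeal P, u • w = 0) ↔ ∀ t ∈ m, t • w = 0 := by
  obtain ⟨_, ⟨a, ha, rfl⟩, e⟩ := hc w
  constructor
  · intro hw t ht
    by_cases hn : a = ⊤
    · subst hn
      rw [← e 0 t (mem_gr.2 (Subsingleton.elim _ _)), zero_smul]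
    · obtain ⟨f, hf⟩ := h.sur a ha (Ideal.Quotient.mk a t)
      rw [← e f t (mem_gr.2 hf)]
      exact hw f (h.mem_max ha hn hf ht)
  · intro hw u hu
    obtain ⟨t, ht⟩ := Ideal.Quotient.mk_surjective (Ψ a u)
    rw [e u t (mem_gr.2 ht.symm)]
    by_cases hm : t ∈ m
    · exact hw t hm
    · obtain ⟨k, hk⟩ := h.ker ha
      have h1 : t ^ k • w = 0 := by
        rw [← e 0 (t ^ k) (mem_gr.2 (by
          rw [map_zero, map_pow, ht, ← map_pow, hk _ (Ideal.pow_mem_pow hu k)])), zero_smul]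
      obtain ⟨y, i, hi, h2⟩ := h.max.exists_inv fun q => hm (h.max.isPrime.mem_of_pow_mem k q)
      rw [← one_smul T w, ← h2, add_smul, mul_smul, h1, hw i hi, smul_zero, add_zero, smul_zero]

/-- the socle -/
theorem Sys.sb (h : Sys m 𝔊 Ψ) (hc : Cmp (GG 𝔊 Ψ) Y) {b : ℕ}
    (hb : ∃ s : Fin b → Y, (∀ j, ∀ u ∈ m, u • s j = 0) ∧
      ∀ w : Y, (∀ u ∈ m, u • w = 0) → w ∈ Submodule.span T (Set.range s)) : Sb P b Y := by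
  obtain ⟨s, h1, h2⟩ := hb
  refine ⟨s, fun j => (h.kill hc _).2 (h1 j), fun w hw => ?_⟩
  refine Submodule.span_induction (fun v hv => Submodule.subset_span hv) (Submodule.zero_mem _)
    (fun _ _ _ _ a b => Submodule.add_mem _ a b) (fun p v _ a => ?_) (h2 w ((h.kill hc w).1 hw))
  obtain ⟨u, hu⟩ := h.mu p
  rw [← act hc hu]
  exact Submodule.smul_mem _ u a

end Vale.Agent.P022G.Md
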